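import Vale.Agent.P204.Defs

namespace Vale.Agent.P204

/-- The coordinate covector `dt = dx₀`. -/
noncomputable def tau : E4 →L[ℝ] ℝ := ContinuousLinearMap.proj 0

/-- The coordinate vector `∂/∂x₀`. -/
noncomputable def e0 : E4 := Pi.single 0 1

@[simp] theorem tau_e0 : tau e0 = 1 := by simp [tau, e0]

theorem tau_apply (v : E4) : tau v = v 0 := rfl

/-- `τ ∘ J`. -/
noncomputable def sig (J : E4 →L[ℝ] E4) : E4 →L[ℝ] ℝ := tau ∘L J

theorem sig_apply (J : E4 →L[ℝ] E4) (v : E4) : sig J v = tau (J v) := rfl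

/-- A vector with `τ = 1` and `τ ∘ J = 0`. -/
noncomputable def xi (J : E4 →L[ℝ] E4) : E4 :=
  (1 + (tau (J e0)) ^ 2)⁻¹ • (e0 + (tau (J e0)) • J e0)

section

variable {J : E4 →L[ℝ] E4} (hJ : ∀ v, J (J v) = -v)

include hJ

theorem tau_xi : tau (xi J) = 1 := by
  have h : (1 + (tau (J e0)) ^ 2) ≠ 0 := by positivity
  simp only [xi, map_smul, map_add, tau_e0, smul_eq_mul]
  field_simp

theorem sig_xi : sig J (xi J) = 0 := by
  simp only [xi, sig_apply, map_smul, map_add, hJ, map_neg, tau_e0, smul_eq_mul]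
  ring

theorem sig_J (v : E4) : sig J (J v) = - tau v := by
  simp only [sig_apply, hJ, map_neg]

theorem line_span {l l' : E4} (hl : l ≠ 0) (h1 : tau l = 0) (h2 : sig J l = 0)
    (h1' : tau l' = 0) (h2' : sig J l' = 0) : ∃ a b : ℝ, l' = a • l + b • J l := by
  have hli : LinearIndependent ℝ ![xi J, J (xi J), l, J l] := by
    rw [Fintype.linearIndependent_iff]
    intro g hg
    simp only [Fin.sum_univ_four, Matrix.cons_val_zero, Matrix.cons_val_one, Matrix.cons_val] at hg
    have t1 := congrArg tau hg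
    have t2 := congrArg (sig J) hg
    simp only [map_add, map_smul, smul_eq_mul, map_zero, tau_xi hJ, sig_xi hJ, sig_J hJ, h1, h2,
      ← sig_apply] at t1 t2
    have g0 : g 0 = 0 := by linarith
    have g1 : g 1 = 0 := by linarith
    rw [g0, g1] at hg
    simp only [zero_smul, zero_add] at hg
    have hg' := congrArg J hg
    simp only [map_add, map_smul, hJ, map_zero, smul_neg] at hg'
    have h3 : ((g 2) ^ 2 + (g 3) ^ 2) • l = 0 := by
      have : ((g 2) ^ 2 + (g 3) ^ 2) • l
          = g 2 • (g 2 • l + g 3 • J l) - g 3 • (g 2 • J l + -(g 3 • l)) := by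
        module
      rw [this, hg, hg']
      simp
    have h4 : (g 2) ^ 2 + (g 3) ^ 2 = 0 := by
      rcases smul_eq_zero.1 h3 with h | h
      · exact h
      · exact absurd h hl
    have g2 : g 2 = 0 := by nlinarith [sq_nonneg (g 2), sq_nonneg (g 3)]
    have g3 : g 3 = 0 := by nlinarith [sq_nonneg (g 2), sq_nonneg (g 3)]
    intro i
    fin_cases i
    · exact g0
    · exact g1
    · exact g2
    · exact g3
  have hspan := hli.span_eq_top_of_card_eq_finrank' (by simp)
  have hmem : l' ∈ Submodule.span ℝ (Set.range ![xi J, J (xi J), l, J l]) := by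
    rw [hspan]; trivial
  rw [Submodule.mem_span_range_iff_exists_fun] at hmem
  obtain ⟨c, hc⟩ := hmem
  simp only [Fin.sum_univ_four, Matrix.cons_val_zero, Matrix.cons_val_one, Matrix.cons_val] at hc
  have t1 := congrArg tau hc
  have t2 := congrArg (sig J) hc
  simp only [map_add, map_smul, smul_eq_mul, tau_xi hJ, sig_xi hJ, sig_J hJ, h1, h2, h1', h2',
    ← sig_apply] at t1 t2
  have c0 : c 0 = 0 := by linarith
  have c1 : c 1 = 0 := by linarith
  rw [c0, c1] at hc
  simp only [zero_smul, zero_add] at hc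
  exact ⟨c 2, c 3, hc.symm⟩

end

end Vale.Agent.P204
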