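import Vale.Agent.P204.Forms
import Vale.Agent.P204.LinAlg

namespace Vale.Agent.P204

open MeasureTheory Set
open scoped ContDiff

variable {w : E4 → E4 [⋀^Fin 2]→L[ℝ] ℝ}

theorem contDiff_comp (hw : ContDiff ℝ ∞ w) (v : Fin 2 → E4) :
    ContDiff ℝ ∞ (fun y => w y v) :=
  (ContinuousAlternatingMap.apply ℝ E4 ℝ v).contDiff.comp hw

theorem sum_single (L : E4 →L[ℝ] ℝ) (p : E4) : ∑ i, p i * L (Pi.single i 1) = L p := by
  have : p = ∑ i, p i • (Pi.single i 1 : E4) := by
    funext j
    simp [Finset.sum_apply, Pi.single_apply]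
  conv_rhs => rw [this]
  simp [map_sum]

theorem closed_comp (hw : IsClosedForm w) (u v : E4) (y : E4) :
    fderiv ℝ (fun z => w z ![u, v]) y e0 - fderiv ℝ (fun z => w z ![e0, v]) y u
      + fderiv ℝ (fun z => w z ![e0, u]) y v = 0 := by
  have h := hw.closed y
  have h2 := congrArg (fun η => η ![e0, u, v]) h
  beta_reduce at h2
  rw [extDeriv_apply (hw.smooth.differentiable (by simp) y)] at h2
  have r0 : (0 : Fin 3).removeNth ![e0, u, v] = ![u, v] := by
    funext i; fin_cases i <;> rfl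
  have r1 : (1 : Fin 3).removeNth ![e0, u, v] = ![e0, v] := by
    funext i; fin_cases i <;> rfl
  have r2 : (2 : Fin 3).removeNth ![e0, u, v] = ![e0, u] := by
    funext i; fin_cases i <;> rfl
  rw [Fin.sum_univ_three, r0, r1, r2] at h2
  simp at h2
  linarith

theorem periodic_insertNth (hw : Periodic4 w) (i : Fin 4) (z : Fin 3 → ℝ) :
    w (i.insertNth (1 : ℝ) z) = w (i.insertNth (0 : ℝ) z) := by
  have h := hw (i.insertNth (0 : ℝ) z) (Pi.single i 1)
  rw [← h]
  congr 1
  funext k
  rcases Fin.eq_self_or_eq_succAbove i k with rfl | ⟨j, rfl⟩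
  · simp
  · simp [Fin.succAbove_ne]

/-- The integral of the component `w(u, v)` over the slice `{t} × [0,1]³`. -/
noncomputable def sliceVal (w : E4 → E4 [⋀^Fin 2]→L[ℝ] ℝ) (u v : E4) (t : ℝ) : ℝ :=
  ∫ z in Icc (0 : Fin 3 → ℝ) 1, w (Fin.cons t z) ![u, v]

theorem sliceVal_le (hw : IsClosedForm w) {u v : E4} (hu : u 0 = 0) (hv : v 0 = 0)
    {t₀ t₁ : ℝ} (ht : t₀ ≤ t₁) : sliceVal w u v t₁ = sliceVal w u v t₀ := by
  set a : E4 := Fin.cons t₀ (0 : Fin 3 → ℝ) with ha
  set b : E4 := Fin.cons t₁ (1 : Fin 3 → ℝ) with hb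
  have hle : a ≤ b := by
    intro i
    refine Fin.cases ?_ (fun j => ?_) i
    · simpa [ha, hb] using ht
    · simp [ha, hb]
  let f : Fin 4 → E4 → ℝ := fun i y =>
    e0 i * w y ![u, v] - u i * w y ![e0, v] + v i * w y ![e0, u]
  let f' : Fin 4 → E4 → E4 →L[ℝ] ℝ := fun i y =>
    e0 i • fderiv ℝ (fun z => w z ![u, v]) y - u i • fderiv ℝ (fun z => w z ![e0, v]) y
      + v i • fderiv ℝ (fun z => w z ![e0, u]) y
  have hd : ∀ (p : Fin 2 → E4) (y : E4),
      HasFDerivAt (fun z => w z p) (fderiv ℝ (fun z => w z p) y) y := fun p y =>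
    ((contDiff_comp hw.smooth p).differentiable (by simp) y).hasFDerivAt
  have Hd : ∀ y, ∀ i, HasFDerivAt (f i) (f' i y) y := by
    intro y i
    exact (((hd _ y).const_mul (e0 i)).sub ((hd _ y).const_mul (u i))).add
      ((hd _ y).const_mul (v i))
  have Hc : ∀ i, ContinuousOn (f i) (Icc a b) := fun i =>
    (continuous_iff_continuousAt.2 (fun y => (Hd y i).continuousAt)).continuousOn
  have hdiv : ∀ y, ∑ i, f' i y (Pi.single i 1) = 0 := by
    intro y
    have := closed_comp hw u v y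
    simp only [f', _root_.add_apply, _root_.sub_apply, _root_.smul_apply, smul_eq_mul,
      Finset.sum_add_distrib, Finset.sum_sub_distrib, sum_single]
    exact this
  have key := integral_divergence_of_hasFDerivAt_off_countable' a b hle f f' ∅ countable_empty Hc
    (fun y _ i => Hd y i) (by simp only [hdiv]; exact integrableOn_zero)
  simp only [hdiv, integral_zero] at key
  rw [Fin.sum_univ_succ] at key
  have hrest : ∀ j : Fin 3,
      ((∫ x in Icc (a ∘ (Fin.succ j).succAbove) (b ∘ (Fin.succ j).succAbove),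
          f (Fin.succ j) ((Fin.succ j).insertNth (b (Fin.succ j)) x))
        - ∫ x in Icc (a ∘ (Fin.succ j).succAbove) (b ∘ (Fin.succ j).succAbove),
          f (Fin.succ j) ((Fin.succ j).insertNth (a (Fin.succ j)) x)) = 0 := by
    intro j
    have e1 : b (Fin.succ j) = 1 := by simp [hb]
    have e2 : a (Fin.succ j) = 0 := by simp [ha]
    rw [e1, e2, sub_eq_zero]
    congr 1
    funext x
    simp only [f, periodic_insertNth hw.periodic]
  simp only [hrest, Finset.sum_const_zero, add_zero] at key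
  have fa : a ∘ (0 : Fin 4).succAbove = 0 := by
    funext j; simp [ha]
  have fb : b ∘ (0 : Fin 4).succAbove = 1 := by
    funext j; simp [hb]
  have a0 : a 0 = t₀ := by simp [ha]
  have b0 : b 0 = t₁ := by simp [hb]
  rw [fa, fb, a0, b0] at key
  have hf0 : ∀ y, f 0 y = w y ![u, v] := by
    intro y
    simp [f, hu, hv, e0]
  simp only [hf0, Fin.insertNth_zero'] at key
  unfold sliceVal
  linarith

theorem sliceVal_const (hw : IsClosedForm w) {u v : E4} (hu : u 0 = 0) (hv : v 0 = 0)
    (t₀ t₁ : ℝ) : sliceVal w u v t₁ = sliceVal w u v t₀ := by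
  rcases le_total t₀ t₁ with h | h
  · exact sliceVal_le hw hu hv h
  · exact (sliceVal_le hw hu hv h).symm

end Vale.Agent.P204
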