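import Vale.Agent.P204.DefsMT

namespace Vale.Agent.P204

open MeasureTheory Set

theorem realMat_mul (A B : Matrix (Fin 3) (Fin 3) ℤ) : realMat (A * B) = realMat A * realMat B := by
  unfold realMat
  exact Matrix.map_mul (f := Int.castRingHom ℝ)

theorem realMat_one : realMat 1 = 1 := by
  unfold realMat
  exact Matrix.map_one (fun n : ℤ => (n : ℝ)) (by simp) (by simp)

theorem realMat_det (A : Matrix (Fin 3) (Fin 3) ℤ) : (realMat A).det = (A.det : ℝ) := by
  have := (Int.castRingHom ℝ).map_det A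
  simpa [realMat, RingHom.mapMatrix_apply] using this.symm

/-- The lattice `ℤ³` in `ℝ³`. -/
abbrev Lat : Submodule ℤ (Fin 3 → ℝ) := Submodule.span ℤ (Set.range (Pi.basisFun ℝ (Fin 3)))

theorem mem_Lat (v : Fin 3 → ℝ) : v ∈ Lat ↔ ∃ n : Fin 3 → ℤ, v = fun i => (n i : ℝ) := by
  rw [Module.Basis.mem_span_iff_repr_mem ℤ (Pi.basisFun ℝ (Fin 3)) v]
  constructor
  · intro h
    choose n hn using h
    exact ⟨n, funext fun i => by simpa using (hn i).symm⟩
  · rintro ⟨n, rfl⟩ i
    exact ⟨n i, by simp⟩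

theorem mulVec_mem_Lat (B : Matrix (Fin 3) (Fin 3) ℤ) {v : Fin 3 → ℝ} (hv : v ∈ Lat) :
    (realMat B).mulVec v ∈ Lat := by
  rw [mem_Lat] at hv ⊢
  obtain ⟨n, rfl⟩ := hv
  refine ⟨B.mulVec n, ?_⟩
  funext i
  simp [Matrix.mulVec, dotProduct, realMat]

theorem integral_comp_unimodular {A B : Matrix (Fin 3) (Fin 3) ℤ} (hAB : A * B = 1)
    (hBA : B * A = 1) (k : (Fin 3 → ℝ) → ℝ)
    (hk : ∀ (z : Fin 3 → ℝ) (n : Fin 3 → ℤ), k (z + fun i => (n i : ℝ)) = k z) :
    ∫ z in Icc (0 : Fin 3 → ℝ) 1, k ((realMat A).mulVec z) = ∫ z in Icc (0 : Fin 3 → ℝ) 1, k z := by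
  have hAB' : realMat A * realMat B = 1 := by rw [← realMat_mul, hAB, realMat_one]
  have hBA' : realMat B * realMat A = 1 := by rw [← realMat_mul, hBA, realMat_one]
  set T : (Fin 3 → ℝ) → (Fin 3 → ℝ) := fun z => (realMat A).mulVec z with hT
  set S : (Fin 3 → ℝ) → (Fin 3 → ℝ) := fun z => (realMat B).mulVec z with hS
  have hTS : ∀ z, T (S z) = z := fun z => by simp [hT, hS, Matrix.mulVec_mulVec, hAB']
  have hST : ∀ z, S (T z) = z := fun z => by simp [hT, hS, Matrix.mulVec_mulVec, hBA']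
  have hTadd : ∀ x y, T (x + y) = T x + T y := fun x y => Matrix.mulVec_add _ _ _
  have hdet : |(realMat A).det| = 1 := by
    have h1 : A.det * B.det = 1 := by rw [← Matrix.det_mul, hAB, Matrix.det_one]
    have h2 : IsUnit A.det := IsUnit.of_mul_eq_one _ h1
    rw [realMat_det]
    rcases Int.isUnit_iff.1 h2 with h | h <;> simp [h]
  have hdet0 : (realMat A).det ≠ 0 := by
    intro h
    rw [h] at hdet
    simp at hdet
  have hTlin : T = ⇑(Matrix.toLin' (realMat A)) := by
    funext z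
    simp [hT, Matrix.toLin'_apply]
  have hcont : Continuous T := by
    rw [hTlin]
    exact LinearMap.continuous_of_finiteDimensional _
  have hcontS : Continuous S := by
    have : S = ⇑(Matrix.toLin' (realMat B)) := by
      funext z
      simp [hS, Matrix.toLin'_apply]
    rw [this]
    exact LinearMap.continuous_of_finiteDimensional _
  have hmp : MeasurePreserving T volume volume := by
    refine ⟨hcont.measurable, ?_⟩
    rw [hTlin, Real.map_matrix_volume_pi_eq_smul_volume_pi hdet0, abs_inv, hdet]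
    simp
  let Th : (Fin 3 → ℝ) ≃ₜ (Fin 3 → ℝ) :=
    { toFun := T, invFun := S, left_inv := hST, right_inv := hTS,
      continuous_toFun := hcont, continuous_invFun := hcontS }
  have hemb : MeasurableEmbedding T := Th.measurableEmbedding
  set F : Set (Fin 3 → ℝ) := ZSpan.fundamentalDomain (Pi.basisFun ℝ (Fin 3)) with hF
  have hFd : IsAddFundamentalDomain Lat F volume := ZSpan.isAddFundamentalDomain _ _
  let e : Lat → Lat := fun g => ⟨S g.1, mulVec_mem_Lat B g.2⟩
  have he : Function.Bijective e := by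
    constructor
    · intro g g' h
      have h1 : S g.1 = S g'.1 := congrArg Subtype.val h
      have h2 := congrArg T h1
      rw [hTS, hTS] at h2
      exact Subtype.ext h2
    · intro g
      refine ⟨⟨T g.1, mulVec_mem_Lat A g.2⟩, ?_⟩
      exact Subtype.ext (hST g.1)
  have hF'd : IsAddFundamentalDomain Lat (T ⁻¹' F) volume := by
    refine hFd.preimage_of_equiv hmp.quasiMeasurePreserving he ?_
    intro g x
    show T ((e g).1 + x) = g.1 + T x
    rw [hTadd]
    show T (S g.1) + T x = g.1 + T x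
    rw [hTS]
  have hkinv : ∀ (g : Lat) (x : Fin 3 → ℝ), k (g +ᵥ x) = k x := by
    intro g x
    obtain ⟨n, hn⟩ := (mem_Lat g.1).1 g.2
    show k (g.1 + x) = k x
    rw [hn, add_comm]
    exact hk x n
  have hkTinv : ∀ (g : Lat) (x : Fin 3 → ℝ), (fun z => k (T z)) (g +ᵥ x) = (fun z => k (T z)) x := by
    intro g x
    show k (T (g.1 + x)) = k (T x)
    rw [hTadd]
    exact hkinv ⟨T g.1, mulVec_mem_Lat A g.2⟩ (T x)
  have hIcc : F =ᵐ[volume] Icc (0 : Fin 3 → ℝ) 1 := by
    rw [hF, ZSpan.fundamentalDomain_pi_basisFun]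
    exact Measure.univ_pi_Ico_ae_eq_Icc
  have hvadd : VAddInvariantMeasure Lat (Fin 3 → ℝ) volume := ⟨fun g s _ => by
    show volume ((fun x => g.1 + x) ⁻¹' s) = volume s
    exact measure_preimage_add volume g.1 s⟩
  rw [← setIntegral_congr_set hIcc, ← setIntegral_congr_set hIcc]
  calc ∫ z in F, k (T z) = ∫ z in T ⁻¹' F, k (T z) := hFd.setIntegral_eq hF'd hkTinv
    _ = ∫ z in F, k z := hmp.setIntegral_preimage_emb hemb k F

end Vale.Agent.P204
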