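import Vale.Agent.P204.Beta
import Vale.Agent.P204.Unimodular

namespace Vale.Agent.P204

open MeasureTheory Set
open scoped ContDiff

variable {w : E4 → E4 [⋀^Fin 2]→L[ℝ] ℝ}

theorem closed_comp' (hs : ContDiff ℝ ∞ w) (hc : ∀ x, extDeriv w x = 0) (u v : E4) (y : E4) :
    fderiv ℝ (fun z => w z ![u, v]) y e0 - fderiv ℝ (fun z => w z ![e0, v]) y u
      + fderiv ℝ (fun z => w z ![e0, u]) y v = 0 := by
  have h := hc y
  have h2 := congrArg (fun η => η ![e0, u, v]) h
  beta_reduce at h2
  rw [extDeriv_apply (hs.differentiable (by simp) y)] at h2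
  have r0 : (0 : Fin 3).removeNth ![e0, u, v] = ![u, v] := by
    funext i; fin_cases i <;> rfl
  have r1 : (1 : Fin 3).removeNth ![e0, u, v] = ![e0, v] := by
    funext i; fin_cases i <;> rfl
  have r2 : (2 : Fin 3).removeNth ![e0, u, v] = ![e0, u] := by
    funext i; fin_cases i <;> rfl
  rw [Fin.sum_univ_three, r0, r1, r2] at h2
  simp at h2
  linarith

theorem periodic_insertNth' (hw : PeriodicFib w) (j : Fin 3) (z : Fin 3 → ℝ) :
    w ((Fin.succ j).insertNth (1 : ℝ) z) = w ((Fin.succ j).insertNth (0 : ℝ) z) := by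
  have h := hw ((Fin.succ j).insertNth (0 : ℝ) z) (Pi.single j 1)
  rw [← h]
  congr 1
  funext k
  rcases Fin.eq_self_or_eq_succAbove (Fin.succ j) k with rfl | ⟨i, rfl⟩
  · simp
  · simp only [Fin.insertNth_apply_succAbove, Pi.add_apply]
    have hne : (Fin.succ j).succAbove i ≠ Fin.succ j := Fin.succAbove_ne _ _
    revert hne
    refine Fin.cases ?_ (fun l => ?_) ((Fin.succ j).succAbove i)
    · intro _; simp
    · intro hne
      have : l ≠ j := fun h => hne (by rw [h])
      simp [Pi.single_apply, this]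

theorem sliceVal_le' (hs : ContDiff ℝ ∞ w) (hc : ∀ x, extDeriv w x = 0) (hp : PeriodicFib w)
    {u v : E4} (hu : u 0 = 0) (hv : v 0 = 0)
    {t₀ t₁ : ℝ} (ht : t₀ ≤ t₁) : sliceVal w u v t₁ = sliceVal w u v t₀ := by
  set a : E4 := Fin.cons t₀ (0 : Fin 3 → ℝ) with ha
  set b : E4 := Fin.cons t₁ (1 : Fin 3 → ℝ) with hb
  have hle : a ≤ b := by
    intro i
    refine Fin.cases ?_ (fun j => ?_) i
    · simpa [ha, hb] using ht
    · simp [ha, hb]
  let f : Fin 4 → E4 → ℝ := fun i y =>
    e0 i * w y ![u, v] - u i * w y ![e0, v] + v i * w y ![e0, u]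
  let f' : Fin 4 → E4 → E4 →L[ℝ] ℝ := fun i y =>
    e0 i • fderiv ℝ (fun z => w z ![u, v]) y - u i • fderiv ℝ (fun z => w z ![e0, v]) y
      + v i • fderiv ℝ (fun z => w z ![e0, u]) y
  have hd : ∀ (p : Fin 2 → E4) (y : E4),
      HasFDerivAt (fun z => w z p) (fderiv ℝ (fun z => w z p) y) y := fun p y =>
    ((contDiff_comp hs p).differentiable (by simp) y).hasFDerivAt
  have Hd : ∀ y, ∀ i, HasFDerivAt (f i) (f' i y) y := by
    intro y i
    exact (((hd _ y).const_mul (e0 i)).sub ((hd _ y).const_mul (u i))).add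
      ((hd _ y).const_mul (v i))
  have Hc : ∀ i, ContinuousOn (f i) (Icc a b) := fun i =>
    (continuous_iff_continuousAt.2 (fun y => (Hd y i).continuousAt)).continuousOn
  have hdiv : ∀ y, ∑ i, f' i y (Pi.single i 1) = 0 := by
    intro y
    have := closed_comp' hs hc u v y
    simp only [f', _root_.add_apply, _root_.sub_apply, _root_.smul_apply, smul_eq_mul,
      Finset.sum_add_distrib, Finset.sum_sub_distrib, sum_single]
    exact this
  have key := integral_divergence_of_hasFDerivAt_off_countable' a b hle f f' ∅ countable_empty Hc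
    (fun y _ i => Hd y i) (by simp only [hdiv]; exact integrableOn_zero)
  simp only [hdiv, integral_zero] at key
  rw [Fin.sum_univ_succ] at key
  have hrest : ∀ j : Fin 3,
      ((∫ x in Icc (a ∘ (Fin.succ j).succAbove) (b ∘ (Fin.succ j).succAbove),
          f (Fin.succ j) ((Fin.succ j).insertNth (b (Fin.succ j)) x))
        - ∫ x in Icc (a ∘ (Fin.succ j).succAbove) (b ∘ (Fin.succ j).succAbove),
          f (Fin.succ j) ((Fin.succ j).insertNth (a (Fin.succ j)) x)) = 0 := by
    intro j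
    have e1 : b (Fin.succ j) = 1 := by simp [hb]
    have e2 : a (Fin.succ j) = 0 := by simp [ha]
    rw [e1, e2, sub_eq_zero]
    congr 1
    funext x
    simp only [f, periodic_insertNth' hp]
  simp only [hrest, Finset.sum_const_zero, add_zero] at key
  have fa : a ∘ (0 : Fin 4).succAbove = 0 := by
    funext j; simp [ha]
  have fb : b ∘ (0 : Fin 4).succAbove = 1 := by
    funext j; simp [hb]
  have a0 : a 0 = t₀ := by simp [ha]
  have b0 : b 0 = t₁ := by simp [hb]
  rw [fa, fb, a0, b0] at key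
  have hf0 : ∀ y, f 0 y = w y ![u, v] := by
    intro y
    simp [f, hu, hv, e0]
  simp only [hf0, Fin.insertNth_zero'] at key
  unfold sliceVal
  linarith

theorem sliceVal_const' (hs : ContDiff ℝ ∞ w) (hc : ∀ x, extDeriv w x = 0) (hp : PeriodicFib w)
    {u v : E4} (hu : u 0 = 0) (hv : v 0 = 0)
    (t₀ t₁ : ℝ) : sliceVal w u v t₁ = sliceVal w u v t₀ := by
  rcases le_total t₀ t₁ with h | h
  · exact sliceVal_le' hs hc hp hu hv h
  · exact (sliceVal_le' hs hc hp hu hv h).symm

theorem beta_apply' (hs : ContDiff ℝ ∞ w) (hc : ∀ x, extDeriv w x = 0) (hp : PeriodicFib w)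
    (t : ℝ) (u v : E4) :
    beta w u v = sliceVal w (piProj u) (piProj v) t := by
  simp only [beta, ContinuousLinearMap.bilinearComp_apply, toBilin_apply]
  rw [sliceForm_apply hs]
  exact sliceVal_const' hs hc hp (piProj_zero u) (piProj_zero v) t 0

theorem beta_pos' (hs : ContDiff ℝ ∞ w) (hc : ∀ x, extDeriv w x = 0) (hp : PeriodicFib w)
    {J : E4 → E4 →L[ℝ] E4}
    (hinv : ∀ x y, x 0 = y 0 → J x = J y) (htame : Tames w J) (x : E4) {l : E4} (hl : l ≠ 0)
    (h1 : tau l = 0) (h2 : sig (J x) l = 0) : 0 < beta w l (J x l) := by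
  rw [beta_apply' hs hc hp (x 0), piProj_of_tau h1, piProj_of_tau (by rwa [sig_apply] at h2)]
  unfold sliceVal
  have hJx : ∀ z : Fin 3 → ℝ, J x = J (Fin.cons (x 0) z) := fun z => hinv _ _ (by simp)
  apply integral_pos_of_pos
  · exact (contDiff_comp hs _).continuous.comp (continuous_cons _)
  · intro z
    rw [hJx z]
    exact htame _ _ hl

theorem hatA_apply (A : Matrix (Fin 3) (Fin 3) ℤ) (v : E4) :
    hatA A v = Fin.cons (v 0) ((realMat A).mulVec (Fin.tail v)) := rfl

theorem hatA_cons (A : Matrix (Fin 3) (Fin 3) ℤ) (t : ℝ) (z : Fin 3 → ℝ) :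
    hatA A (Fin.cons t z) = Fin.cons t ((realMat A).mulVec z) := by
  rw [hatA_apply]
  simp

theorem tau_hatA (A : Matrix (Fin 3) (Fin 3) ℤ) (v : E4) : tau (hatA A v) = tau v := by
  simp [hatA_apply, tau_apply]

theorem hatA_e0 (A : Matrix (Fin 3) (Fin 3) ℤ) : hatA A e0 = e0 := by
  rw [hatA_apply]
  have h : Fin.tail e0 = (0 : Fin 3 → ℝ) := by
    funext i
    simp [Fin.tail, e0]
  rw [h, Matrix.mulVec_zero]
  funext i
  refine Fin.cases ?_ (fun j => ?_) i
  · simp [e0]
  · simp [e0]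

theorem piProj_hatA (A : Matrix (Fin 3) (Fin 3) ℤ) (v : E4) :
    piProj (hatA A v) = hatA A (piProj v) := by
  simp only [piProj_apply, map_sub, map_smul, tau_hatA, hatA_e0]

theorem deck_cons (A : Matrix (Fin 3) (Fin 3) ℤ) (t : ℝ) (z : Fin 3 → ℝ) :
    deck A (Fin.cons t z) = Fin.cons (t + 1) ((realMat A).mulVec z) := by
  unfold deck
  rw [hatA_cons]
  funext i
  refine Fin.cases ?_ (fun j => ?_) i
  · simp
  · simp

theorem beta_hatA {A B : Matrix (Fin 3) (Fin 3) ℤ} (hAB : A * B = 1) (hBA : B * A = 1)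
    (hw : IsClosedFormMT A w) (u v : E4) : beta w (hatA A u) (hatA A v) = beta w u v := by
  rw [beta_apply' hw.smooth hw.closed hw.periodic 1, beta_apply' hw.smooth hw.closed hw.periodic 0 u v,
    piProj_hatA, piProj_hatA]
  set p := piProj u
  set q := piProj v
  unfold sliceVal
  have hk : ∀ (z : Fin 3 → ℝ) (n : Fin 3 → ℤ),
      (fun z => w (Fin.cons 1 z) ![hatA A p, hatA A q]) (z + fun i => (n i : ℝ))
        = (fun z => w (Fin.cons 1 z) ![hatA A p, hatA A q]) z := by
    intro z n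
    have h := hw.periodic (Fin.cons 1 z) n
    have e : (Fin.cons 1 (z + fun i => (n i : ℝ)) : E4)
        = Fin.cons 1 z + Fin.cons 0 (fun i => (n i : ℝ)) := by
      funext i
      refine Fin.cases ?_ (fun j => ?_) i
      · simp
      · simp
    simp only [e, h]
  rw [← integral_comp_unimodular hAB hBA _ hk]
  congr 1
  funext z
  have h := hw.equivariant (Fin.cons 0 z) p q
  rw [deck_cons] at h
  simpa using h

end Vale.Agent.P204
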