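import Vale.Agent.P204.LinAlg

namespace Vale.Agent.P204

/-- The covector `v ↦ β(Jξ, Jv) - β(ξ, v)`. -/
noncomputable def al0 (β : E4 →L[ℝ] E4 →L[ℝ] ℝ) (J : E4 →L[ℝ] E4) : E4 →L[ℝ] ℝ :=
  (β (J (xi J))) ∘L J - β (xi J)

/-- The covector `α₀ - c σ`. -/
noncomputable def Acov (c : ℝ) (β : E4 →L[ℝ] E4 →L[ℝ] ℝ) (J : E4 →L[ℝ] E4) : E4 →L[ℝ] ℝ :=
  al0 β J - c • sig J

/-- The value of the new two-form `β + τ ∧ A`. -/
noncomputable def Wval (c : ℝ) (β : E4 →L[ℝ] E4 →L[ℝ] ℝ) (J : E4 →L[ℝ] E4) (u v : E4) : ℝ :=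
  β u v + tau u * Acov c β J v - tau v * Acov c β J u

theorem al0_apply (β : E4 →L[ℝ] E4 →L[ℝ] ℝ) (J : E4 →L[ℝ] E4) (v : E4) :
    al0 β J v = β (J (xi J)) (J v) - β (xi J) v := rfl

theorem Acov_apply (c : ℝ) (β : E4 →L[ℝ] E4 →L[ℝ] ℝ) (J : E4 →L[ℝ] E4) (v : E4) :
    Acov c β J v = β (J (xi J)) (J v) - β (xi J) v - c * sig J v := rfl

section

variable {J : E4 →L[ℝ] E4} (hJ : ∀ v, J (J v) = -v)
  {β : E4 →L[ℝ] E4 →L[ℝ] ℝ} (hβ : ∀ u v, β u v = - β v u)

include hJ hβ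

theorem psi_line {l l' : E4} (h1 : tau l = 0) (h2 : sig J l = 0)
    (h1' : tau l' = 0) (h2' : sig J l' = 0) : β l l' - β (J l) (J l') = 0 := by
  by_cases hl : l = 0
  · subst hl; simp
  · obtain ⟨a, b, rfl⟩ := line_span hJ hl h1 h2 h1' h2'
    simp only [map_add, map_smul, hJ, smul_eq_mul, map_neg]
    have e1 : β l l = 0 := by linarith [hβ l l]
    have e2 : β (J l) (J l) = 0 := by linarith [hβ (J l) (J l)]
    have e3 := hβ (J l) l
    rw [e1, e2, e3]
    ring

theorem Wval_inv (c : ℝ) (u v : E4) : Wval c β J (J u) (J v) = Wval c β J u v := by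
  set D : E4 → E4 → ℝ := fun u v => Wval c β J u v - Wval c β J (J u) (J v) with hD
  have hadd : ∀ u u' v, D (u + u') v = D u v + D u' v := by
    intro u u' v
    simp only [hD, Wval, map_add, ContinuousLinearMap.add_apply]
    ring
  have hsmul : ∀ (r : ℝ) u v, D (r • u) v = r * D u v := by
    intro r u v
    simp only [hD, Wval, map_smul, ContinuousLinearMap.smul_apply, smul_eq_mul]
    ring
  have hanti : ∀ u v, D u v = - D v u := by
    intro u v
    simp only [hD, Wval]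
    rw [hβ u v, hβ (J u) (J v)]
    ring
  have hxx : β (xi J) (xi J) = 0 := by linarith [hβ (xi J) (xi J)]
  have hjj : β (J (xi J)) (J (xi J)) = 0 := by linarith [hβ (J (xi J)) (J (xi J))]
  have hxi : ∀ v, D (xi J) v = 0 := by
    intro v
    simp only [hD, Wval, Acov_apply, hJ, tau_xi hJ, sig_xi hJ, sig_J hJ, ← sig_apply, map_neg,
      ContinuousLinearMap.neg_apply, hxx, hjj]
    rw [hβ (J (xi J)) (xi J)]
    ring
  have hJxi : ∀ v, D (J (xi J)) v = 0 := by
    intro v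
    simp only [hD, Wval, Acov_apply, hJ, tau_xi hJ, sig_xi hJ, sig_J hJ, ← sig_apply, map_neg,
      ContinuousLinearMap.neg_apply, hxx, hjj]
    rw [hβ (J (xi J)) (xi J)]
    ring
  have hL : ∀ l l', tau l = 0 → sig J l = 0 → tau l' = 0 → sig J l' = 0 → D l l' = 0 := by
    intro l l' h1 h2 h1' h2'
    simp only [hD, Wval, ← sig_apply, h1, h2, h1', h2']
    have := psi_line hJ hβ h1 h2 h1' h2'
    linarith
  set P : E4 → E4 := fun u => u - tau u • xi J + sig J u • J (xi J) with hP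
  have hdec : ∀ u, u = tau u • xi J + (- sig J u) • J (xi J) + P u := by
    intro u
    simp only [hP]
    module
  have hP1 : ∀ u, tau (P u) = 0 := by
    intro u
    simp only [hP, map_add, map_sub, map_smul, smul_eq_mul, tau_xi hJ, ← sig_apply, sig_xi hJ]
    ring
  have hP2 : ∀ u, sig J (P u) = 0 := by
    intro u
    simp only [hP, map_add, map_sub, map_smul, smul_eq_mul, tau_xi hJ, sig_J hJ, sig_xi hJ]
    ring
  have hred : ∀ u v, D u v = D (P u) v := by
    intro u v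
    conv_lhs => rw [hdec u]
    rw [hadd, hadd, hsmul, hsmul, hxi, hJxi]
    ring
  have hzero : D u v = 0 := by
    rw [hred u v, hanti, hred v (P u), hL _ _ (hP1 v) (hP2 v) (hP1 u) (hP2 u)]
    simp
  simp only [hD] at hzero
  linarith

omit hβ in
theorem Wval_tame (c : ℝ) (u : E4) :
    Wval c β J u (J u) = c * ((tau u) ^ 2 + (sig J u) ^ 2) + Wval 0 β J u (J u) := by
  simp only [Wval, Acov_apply, sig_J hJ, ← sig_apply]
  ring

omit hJ hβ in
theorem Wval_line (u : E4) (h1 : tau u = 0) (h2 : sig J u = 0) :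
    Wval 0 β J u (J u) = β u (J u) := by
  simp only [Wval, ← sig_apply, h1, h2]
  ring

end

end Vale.Agent.P204
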