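import Vale.Agent.P204.Average
import Vale.Agent.P204.Invariance

namespace Vale.Agent.P204

open MeasureTheory Set
open scoped ContDiff

variable {w : E4 → E4 [⋀^Fin 2]→L[ℝ] ℝ}

/-- The projection killing the `x₀` direction. -/
noncomputable def piProj : E4 →L[ℝ] E4 := ContinuousLinearMap.id ℝ E4 - tau.smulRight e0

theorem piProj_apply (p : E4) : piProj p = p - tau p • e0 := rfl

theorem piProj_zero (p : E4) : (piProj p) 0 = 0 := by
  simp [piProj_apply, tau_apply, e0]

theorem piProj_of_tau {p : E4} (h : tau p = 0) : piProj p = p := by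
  simp [piProj_apply, h]

/-- The average of `w` over the slice `{0} × [0,1]³`. -/
noncomputable def sliceForm (w : E4 → E4 [⋀^Fin 2]→L[ℝ] ℝ) : E4 [⋀^Fin 2]→L[ℝ] ℝ :=
  ∫ z in Icc (0 : Fin 3 → ℝ) 1, w (Fin.cons 0 z)

theorem continuous_cons (t : ℝ) : Continuous (fun z : Fin 3 → ℝ => (Fin.cons t z : E4)) := by
  apply continuous_pi
  intro i
  refine Fin.cases ?_ (fun j => ?_) i
  · simpa using continuous_const
  · simpa using continuous_apply j

theorem sliceForm_apply (hw : ContDiff ℝ ∞ w) (u v : E4) :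
    sliceForm w ![u, v] = sliceVal w u v 0 := by
  have hint : IntegrableOn (fun z : Fin 3 → ℝ => w (Fin.cons 0 z)) (Icc 0 1) :=
    (hw.continuous.comp (continuous_cons 0)).continuousOn.integrableOn_compact isCompact_Icc
  have := (ContinuousAlternatingMap.apply ℝ E4 ℝ ![u, v]).integral_comp_comm hint
  exact this.symm

/-- The constant bilinear form `β`. -/
noncomputable def beta (w : E4 → E4 [⋀^Fin 2]→L[ℝ] ℝ) : E4 →L[ℝ] E4 →L[ℝ] ℝ :=
  (toBilin (sliceForm w)).bilinearComp piProj piProj

theorem beta_anti (w : E4 → E4 [⋀^Fin 2]→L[ℝ] ℝ) (u v : E4) : beta w u v = - beta w v u := by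
  simp only [beta, ContinuousLinearMap.bilinearComp_apply]
  exact toBilin_anti _ _ _

theorem beta_apply (hw : IsClosedForm w) (t : ℝ) (u v : E4) :
    beta w u v = sliceVal w (piProj u) (piProj v) t := by
  simp only [beta, ContinuousLinearMap.bilinearComp_apply, toBilin_apply]
  rw [sliceForm_apply hw.smooth]
  exact sliceVal_const hw (piProj_zero u) (piProj_zero v) t 0

theorem integral_pos_of_pos {f : (Fin 3 → ℝ) → ℝ} (hf : Continuous f) (hpos : ∀ z, 0 < f z) :
    0 < ∫ z in Icc (0 : Fin 3 → ℝ) 1, f z := by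
  rw [setIntegral_pos_iff_support_of_nonneg_ae]
  · have : Function.support f = univ := by
      ext z
      simp [(hpos z).ne']
    rw [this, univ_inter, Real.volume_Icc_pi]
    simp
  · exact Filter.Eventually.of_forall (fun z => (hpos z).le)
  · exact hf.continuousOn.integrableOn_compact isCompact_Icc

theorem beta_pos (hw : IsClosedForm w) {J : E4 → E4 →L[ℝ] E4}
    (hinv : ∀ x y, x 0 = y 0 → J x = J y) (htame : Tames w J) (x : E4) {l : E4} (hl : l ≠ 0)
    (h1 : tau l = 0) (h2 : sig (J x) l = 0) : 0 < beta w l (J x l) := by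
  rw [beta_apply hw (x 0), piProj_of_tau h1, piProj_of_tau (by rwa [sig_apply] at h2)]
  unfold sliceVal
  have hJx : ∀ z : Fin 3 → ℝ, J x = J (Fin.cons (x 0) z) := fun z => hinv _ _ (by simp)
  apply integral_pos_of_pos
  · exact (contDiff_comp hw.smooth _).continuous.comp (continuous_cons _)
  · intro z
    rw [hJx z]
    exact htame _ _ hl

end Vale.Agent.P204
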