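import Vale.Agent.P204.Tame

namespace Vale.Agent.P204

open Set
open scoped ContDiff

/-- The bilinear form `(u, v) ↦ τ(u) A(v)`, as a continuous linear function of `A`. -/
noncomputable def tauTimes : (E4 →L[ℝ] ℝ) →L[ℝ] E4 →L[ℝ] E4 →L[ℝ] ℝ :=
  ((ContinuousLinearMap.lsmul ℝ ℝ : ℝ →L[ℝ] (E4 →L[ℝ] ℝ) →L[ℝ] (E4 →L[ℝ] ℝ)) ∘L tau).flip

theorem tauTimes_apply (A : E4 →L[ℝ] ℝ) (u v : E4) : tauTimes A u v = tau u * A v := by
  simp [tauTimes]

/-- The new two-form `β + τ ∧ A(x)`. -/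
noncomputable def newForm (c : ℝ) (β : E4 →L[ℝ] E4 →L[ℝ] ℝ) (J : E4 → E4 →L[ℝ] E4) (x : E4) :
    E4 [⋀^Fin 2]→L[ℝ] ℝ :=
  alt2 ((1 / 2 : ℝ) • β + tauTimes (Acov c β (J x)))

theorem newForm_apply (c : ℝ) {β : E4 →L[ℝ] E4 →L[ℝ] ℝ} (hβ : ∀ u v, β u v = - β v u)
    (J : E4 → E4 →L[ℝ] E4) (x : E4) (p : Fin 2 → E4) :
    newForm c β J x p = Wval c β (J x) (p 0) (p 1) := by
  simp only [newForm, alt2_apply, Wval, _root_.add_apply, _root_.smul_apply, smul_eq_mul,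
    tauTimes_apply]
  rw [hβ (p 1) (p 0)]
  ring

theorem contDiff_xi {J : E4 → E4 →L[ℝ] E4} (hJ : ContDiff ℝ ∞ J) :
    ContDiff ℝ ∞ (fun x => xi (J x)) := by
  unfold xi
  have h1 : ContDiff ℝ ∞ (fun x => J x e0) := hJ.clm_apply contDiff_const
  have h2 : ContDiff ℝ ∞ (fun x => tau (J x e0)) := tau.contDiff.comp h1
  have h3 : ContDiff ℝ ∞ (fun x => (1 + (tau (J x e0)) ^ 2)⁻¹) := by
    apply ContDiff.inv (contDiff_const.add (h2.pow 2))
    intro x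
    positivity
  exact h3.smul (contDiff_const.add (h2.smul h1))

theorem contDiff_Acov (c : ℝ) (β : E4 →L[ℝ] E4 →L[ℝ] ℝ) {J : E4 → E4 →L[ℝ] E4}
    (hJ : ContDiff ℝ ∞ J) : ContDiff ℝ ∞ (fun x => Acov c β (J x)) := by
  have hxi := contDiff_xi hJ
  unfold Acov al0 sig
  have h1 : ContDiff ℝ ∞ (fun x => β (J x (xi (J x)))) := β.contDiff.comp (hJ.clm_apply hxi)
  have h2 : ContDiff ℝ ∞ (fun x => β (xi (J x))) := β.contDiff.comp hxi
  have h3 : ContDiff ℝ ∞ (fun x => tau ∘L J x) := contDiff_const.clm_comp hJ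
  exact ((h1.clm_comp hJ).sub h2).sub (h3.const_smul c)

theorem contDiff_newForm (c : ℝ) (β : E4 →L[ℝ] E4 →L[ℝ] ℝ) {J : E4 → E4 →L[ℝ] E4}
    (hJ : ContDiff ℝ ∞ J) : ContDiff ℝ ∞ (newForm c β J) := by
  unfold newForm
  have h1 : ContDiff ℝ ∞ (fun A : E4 →L[ℝ] ℝ => tauTimes A) :=
    ContinuousLinearMap.contDiff (𝕜 := ℝ) (E := E4 →L[ℝ] ℝ) (F := E4 →L[ℝ] E4 →L[ℝ] ℝ) tauTimes
  have h2 : ContDiff ℝ ∞ (fun b : E4 →L[ℝ] E4 →L[ℝ] ℝ => alt2 b) :=
    ContinuousLinearMap.contDiff (𝕜 := ℝ) (E := E4 →L[ℝ] E4 →L[ℝ] ℝ)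
      (F := E4 [⋀^Fin 2]→L[ℝ] ℝ) alt2
  exact h2.comp (contDiff_const.add (h1.comp (contDiff_Acov c β hJ)))

theorem fderiv_of_inv {F : Type*} [NormedAddCommGroup F] [NormedSpace ℝ F] {g : E4 → F}
    (hg : Differentiable ℝ g) (hinv : ∀ x y, x 0 = y 0 → g x = g y) (x v : E4) :
    fderiv ℝ g x v = tau v • fderiv ℝ g x e0 := by
  set Pr : E4 →L[ℝ] E4 := tau.smulRight e0 with hPr
  have hcomp : g = g ∘ Pr := by
    funext y
    apply hinv
    simp [hPr, tau_apply, e0]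
  have hfd : fderiv ℝ g x = (fderiv ℝ g (Pr x)).comp Pr := by
    conv_lhs => rw [hcomp]
    rw [fderiv_comp x (hg _) Pr.differentiableAt, Pr.fderiv]
  rw [hfd]
  simp [hPr]

theorem closed_newForm (c : ℝ) {β : E4 →L[ℝ] E4 →L[ℝ] ℝ} (hβ : ∀ u v, β u v = - β v u)
    {J : E4 → E4 →L[ℝ] E4} (hJ : ContDiff ℝ ∞ J) (hinv : ∀ x y, x 0 = y 0 → J x = J y) (x : E4) :
    extDeriv (newForm c β J) x = 0 := by
  have hAd : Differentiable ℝ (fun y => Acov c β (J y)) :=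
    (contDiff_Acov c β hJ).differentiable (by simp)
  set D := fderiv ℝ (fun y => Acov c β (J y)) x with hD
  have hA : HasFDerivAt (fun y => Acov c β (J y)) D x := (hAd x).hasFDerivAt
  have hDv : ∀ v, D v = tau v • D e0 := fun v =>
    fderiv_of_inv hAd (fun y z hyz => by rw [hinv y z hyz]) x v
  have h1 : ∀ q : E4, HasFDerivAt (fun y => Acov c β (J y) q)
      ((ContinuousLinearMap.apply ℝ ℝ q).comp D) x :=
    fun q => (ContinuousLinearMap.apply ℝ ℝ q).hasFDerivAt.comp x hA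
  have h2 : ∀ p : Fin 2 → E4, HasFDerivAt (fun y => newForm c β J y p)
      (tau (p 0) • (ContinuousLinearMap.apply ℝ ℝ (p 1)).comp D
        - tau (p 1) • (ContinuousLinearMap.apply ℝ ℝ (p 0)).comp D) x := by
    intro p
    have h3 := (((h1 (p 1)).const_mul (tau (p 0))).sub
      ((h1 (p 0)).const_mul (tau (p 1)))).const_add (β (p 0) (p 1))
    refine h3.congr_of_eventuallyEq (Filter.Eventually.of_forall (fun y => ?_))
    simp only [newForm_apply c hβ, Wval, Pi.sub_apply]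
    ring
  ext v
  rw [extDeriv_apply ((contDiff_newForm c β hJ).differentiable (by simp) x)]
  simp only [(h2 _).fderiv]
  rw [Fin.sum_univ_three]
  have r00 : (0 : Fin 3).removeNth v 0 = v 1 := rfl
  have r01 : (0 : Fin 3).removeNth v 1 = v 2 := rfl
  have r10 : (1 : Fin 3).removeNth v 0 = v 0 := rfl
  have r11 : (1 : Fin 3).removeNth v 1 = v 2 := rfl
  have r20 : (2 : Fin 3).removeNth v 0 = v 0 := rfl
  have r21 : (2 : Fin 3).removeNth v 1 = v 1 := rfl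
  simp only [r00, r01, r10, r11, r20, r21, _root_.sub_apply, _root_.smul_apply,
    ContinuousLinearMap.comp_apply, ContinuousLinearMap.apply_apply, smul_eq_mul]
  rw [hDv (v 0), hDv (v 1), hDv (v 2)]
  simp only [_root_.smul_apply, smul_eq_mul]
  simp
  ring

end Vale.Agent.P204
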