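import Mathlib

namespace Vale.Agent.P204

open scoped ContDiff

/-- The universal cover `ℝ⁴` of the four-torus `T⁴ = ℝ⁴ / ℤ⁴`. -/
abbrev E4 : Type := Fin 4 → ℝ

/-- A field on `ℝ⁴` is `ℤ⁴`-periodic, that is, it descends to the torus `T⁴ = ℝ⁴ / ℤ⁴`. -/
def Periodic4 {Y : Type*} (f : E4 → Y) : Prop :=
  ∀ (x : E4) (k : Fin 4 → ℤ), f (x + fun i => (k i : ℝ)) = f x

/-- A smooth almost complex structure on `T⁴`. -/
structure IsAlmostComplex (J : E4 → E4 →L[ℝ] E4) : Prop where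
  smooth : ContDiff ℝ ∞ J
  periodic : Periodic4 J
  sq : ∀ x v, J x (J x v) = -v

/-- A smooth closed two-form on `T⁴`. -/
structure IsClosedForm (w : E4 → E4 [⋀^Fin 2]→L[ℝ] ℝ) : Prop where
  smooth : ContDiff ℝ ∞ w
  periodic : Periodic4 w
  closed : ∀ x, extDeriv w x = 0

/-- The two-form `w` tames `J`. -/
def Tames (w : E4 → E4 [⋀^Fin 2]→L[ℝ] ℝ) (J : E4 → E4 →L[ℝ] E4) : Prop :=
  ∀ x v, v ≠ 0 → 0 < w x ![v, J x v]

/-- The two-form `w` is compatible with `J`. -/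
def Compatible (w : E4 → E4 [⋀^Fin 2]→L[ℝ] ℝ) (J : E4 → E4 →L[ℝ] E4) : Prop :=
  Tames w J ∧ ∀ x u v, w x ![J x u, J x v] = w x ![u, v]

end Vale.Agent.P204
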