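import Vale.Agent.P204.Defs

namespace Vale.Agent.P204

open scoped ContDiff

/-- An integer matrix as a real matrix. -/
def realMat (A : Matrix (Fin 3) (Fin 3) ℤ) : Matrix (Fin 3) (Fin 3) ℝ := A.map (fun n : ℤ => (n : ℝ))

/-- The linear map `(t, z) ↦ (t, A z)` of `ℝ⁴ = ℝ × ℝ³`. -/
noncomputable def hatA (A : Matrix (Fin 3) (Fin 3) ℤ) : E4 →L[ℝ] E4 :=
  LinearMap.toContinuousLinearMap
    { toFun := fun v => Fin.cons (v 0) ((realMat A).mulVec (Fin.tail v))
      map_add' := fun u v => by
        funext i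
        refine Fin.cases ?_ (fun j => ?_) i
        · simp
        · have : Fin.tail (u + v) = Fin.tail u + Fin.tail v := rfl
          simp [this, Matrix.mulVec_add]
      map_smul' := fun c v => by
        funext i
        refine Fin.cases ?_ (fun j => ?_) i
        · simp
        · have : Fin.tail (c • v) = c • Fin.tail v := rfl
          simp [this, Matrix.mulVec_smul] }

/-- The deck transformation `(t, z) ↦ (t + 1, A z)`. Together with the translations by `{0} × ℤ³`
it generates a group `Γ_A` acting on `ℝ⁴`; the quotient `X_A = ℝ⁴ / Γ_A` is the mapping torus of the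
automorphism `A` of `T³`, a closed four-manifold fibred over the circle with fibre `T³`. -/
noncomputable def deck (A : Matrix (Fin 3) (Fin 3) ℤ) (x : E4) : E4 := hatA A x + Pi.single 0 1

/-- Invariance under the translations by `{0} × ℤ³`. -/
def PeriodicFib {Y : Type*} (f : E4 → Y) : Prop :=
  ∀ (x : E4) (k : Fin 3 → ℤ), f (x + Fin.cons 0 (fun i => (k i : ℝ))) = f x

/-- A smooth almost complex structure on `X_A`: a `Γ_A`-invariant one on `ℝ⁴`. -/
structure IsAlmostComplexMT (A : Matrix (Fin 3) (Fin 3) ℤ) (J : E4 → E4 →L[ℝ] E4) : Prop where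
  smooth : ContDiff ℝ ∞ J
  periodic : PeriodicFib J
  equivariant : ∀ x v, J (deck A x) (hatA A v) = hatA A (J x v)
  sq : ∀ x v, J x (J x v) = -v

/-- A smooth closed two-form on `X_A`: a `Γ_A`-invariant one on `ℝ⁴`. -/
structure IsClosedFormMT (A : Matrix (Fin 3) (Fin 3) ℤ) (w : E4 → E4 [⋀^Fin 2]→L[ℝ] ℝ) : Prop where
  smooth : ContDiff ℝ ∞ w
  periodic : PeriodicFib w
  equivariant : ∀ x u v, w (deck A x) ![hatA A u, hatA A v] = w x ![u, v]
  closed : ∀ x, extDeriv w x = 0

end Vale.Agent.P204
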