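import Vale.Agent.P204.Defs

namespace Vale.Agent.P204

open ContinuousAlternatingMap

theorem update_zero (p q r : E4) : Function.update ![p, q] 0 r = ![r, q] := by
  funext i
  fin_cases i <;> simp

theorem update_one (p q r : E4) : Function.update ![p, q] 1 r = ![p, r] := by
  funext i
  fin_cases i <;> simp

/-- A two-form as a continuous bilinear form. -/
noncomputable def toBilin (η : E4 [⋀^Fin 2]→L[ℝ] ℝ) : E4 →L[ℝ] E4 →L[ℝ] ℝ :=
  LinearMap.mkContinuous₂
    (LinearMap.mk₂ ℝ (fun u v => η ![u, v])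
      (fun u u' v => by
        have := η.map_update_add ![u, v] 0 u u'
        rwa [update_zero, update_zero, update_zero] at this)
      (fun c u v => by
        have := η.map_update_smul ![u, v] 0 c u
        rwa [update_zero, update_zero] at this)
      (fun u v v' => by
        have := η.map_update_add ![u, v] 1 v v'
        rwa [update_one, update_one, update_one] at this)
      (fun c u v => by
        have := η.map_update_smul ![u, v] 1 c v
        rwa [update_one, update_one] at this))
    ‖η‖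
    (fun u v => by
      have := η.le_opNorm ![u, v]
      simpa [Fin.prod_univ_two, mul_assoc] using this)

theorem toBilin_apply (η : E4 [⋀^Fin 2]→L[ℝ] ℝ) (u v : E4) : toBilin η u v = η ![u, v] := rfl

theorem toBilin_anti (η : E4 [⋀^Fin 2]→L[ℝ] ℝ) (u v : E4) : toBilin η u v = - toBilin η v u := by
  rw [toBilin_apply, toBilin_apply]
  have h := η.toAlternatingMap.map_swap ![v, u] (i := 0) (j := 1) (by decide)
  have e : (![v, u] ∘ ⇑(Equiv.swap (0 : Fin 2) 1)) = ![u, v] := by
    funext i
    fin_cases i <;> simp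
  rw [e] at h
  exact h

/-- The two-form `(u, v) ↦ b u v - b v u`, as a continuous linear function of `b`. -/
noncomputable def alt2 : (E4 →L[ℝ] E4 →L[ℝ] ℝ) →L[ℝ] E4 [⋀^Fin 2]→L[ℝ] ℝ :=
  (alternatizeUncurryFinCLM ℝ E4 ℝ) ∘L
    (ContinuousLinearMap.compL ℝ E4 (E4 →L[ℝ] ℝ) (E4 [⋀^Fin 1]→L[ℝ] ℝ)
      ((ofSubsingletonLIE (𝕜 := ℝ) (E := E4) (F := ℝ)
        (0 : Fin 1)).toLinearIsometry.toContinuousLinearMap))

theorem alt2_apply (b : E4 →L[ℝ] E4 →L[ℝ] ℝ) (v : Fin 2 → E4) :
    alt2 b v = b (v 0) (v 1) - b (v 1) (v 0) := by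
  simp [alt2, alternatizeUncurryFinCLM_apply, alternatizeUncurryFin_apply, Fin.sum_univ_two,
    Fin.removeNth]
  ring

end Vale.Agent.P204
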