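import Vale.Agent.P204.Beta

namespace Vale.Agent.P204

open Set
open scoped ContDiff

theorem exists_c {X : Type*} [TopologicalSpace X] {K : Set X} (hK : IsCompact K) {f R : X → ℝ}
    (hf : Continuous f) (hR : Continuous R) (hf0 : ∀ k ∈ K, 0 ≤ f k)
    (h : ∀ k ∈ K, f k = 0 → 0 < R k) : ∃ c : ℝ, ∀ k ∈ K, 0 < c * f k + R k := by
  set Z : Set X := K ∩ {k | R k ≤ 0} with hZ
  have hZc : IsCompact Z := hK.inter_right (isClosed_le hR continuous_const)
  rcases Z.eq_empty_or_nonempty with hemp | hne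
  · refine ⟨0, fun k hk => ?_⟩
    have : k ∉ Z := by rw [hemp]; exact Set.notMem_empty k
    have h2 : ¬ R k ≤ 0 := fun h3 => this ⟨hk, h3⟩
    simpa using not_le.1 h2
  · obtain ⟨z₀, hz₀, hmin₀⟩ := hZc.exists_isMinOn hne hf.continuousOn
    obtain ⟨z₁, hz₁, hmin₁⟩ := hZc.exists_isMinOn hne hR.continuousOn
    have hfz : 0 < f z₀ := by
      rcases (hf0 z₀ hz₀.1).lt_or_eq with h3 | h3
      · exact h3
      · exact absurd (h z₀ hz₀.1 h3.symm) (not_lt.2 hz₀.2)
    have hm : R z₁ ≤ 0 := hz₁.2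
    refine ⟨(1 - R z₁) / f z₀, fun k hk => ?_⟩
    have hc : 0 ≤ (1 - R z₁) / f z₀ := div_nonneg (by linarith) hfz.le
    by_cases hkZ : k ∈ Z
    · have e1 : f z₀ ≤ f k := hmin₀ hkZ
      have e2 : R z₁ ≤ R k := hmin₁ hkZ
      have e3 : (1 - R z₁) / f z₀ * f z₀ ≤ (1 - R z₁) / f z₀ * f k :=
        mul_le_mul_of_nonneg_left e1 hc
      rw [div_mul_cancel₀ _ hfz.ne'] at e3
      linarith
    · have h2 : ¬ R k ≤ 0 := fun h3 => hkZ ⟨hk, h3⟩
      have := mul_nonneg hc (hf0 k hk)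
      linarith [not_le.1 h2]

theorem continuous_xi {X : Type*} [TopologicalSpace X] {J : X → E4 →L[ℝ] E4} (hJ : Continuous J) :
    Continuous (fun x => xi (J x)) := by
  unfold xi
  have h1 : Continuous (fun x => J x e0) := hJ.clm_apply continuous_const
  have h2 : Continuous (fun x => tau (J x e0)) := tau.continuous.comp h1
  have h3 : Continuous (fun x => (1 + (tau (J x e0)) ^ 2)⁻¹) := by
    apply Continuous.inv₀ (by fun_prop)
    intro x
    positivity
  exact h3.smul (continuous_const.add (h2.smul h1))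

theorem continuous_Wval (β : E4 →L[ℝ] E4 →L[ℝ] ℝ) {X : Type*} [TopologicalSpace X]
    {J : X → E4 →L[ℝ] E4} (hJ : Continuous J) {u v : X → E4} (hu : Continuous u)
    (hv : Continuous v) : Continuous (fun x => Wval 0 β (J x) (u x) (v x)) := by
  have hxi := continuous_xi hJ
  have hb : ∀ {p q : X → E4}, Continuous p → Continuous q → Continuous (fun x => β (p x) (q x)) :=
    fun hp hq => (β.continuous.comp hp).clm_apply hq
  have hJa : ∀ {p : X → E4}, Continuous p → Continuous (fun x => J x (p x)) :=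
    fun hp => hJ.clm_apply hp
  have ht : ∀ {p : X → E4}, Continuous p → Continuous (fun x => tau (p x)) :=
    fun hp => tau.continuous.comp hp
  simp only [Wval, Acov_apply, sig_apply]
  exact ((hb hu hv).add ((ht hu).mul (((hb (hJa hxi) (hJa hv)).sub (hb hxi hv)).sub
    (continuous_const.mul (ht (hJa hv)))))).sub
    ((ht hv).mul (((hb (hJa hxi) (hJa hu)).sub (hb hxi hu)).sub
    (continuous_const.mul (ht (hJa hu)))))

theorem Wval_smul (c : ℝ) (β : E4 →L[ℝ] E4 →L[ℝ] ℝ) (J : E4 →L[ℝ] E4) (r : ℝ) (u : E4) :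
    Wval c β J (r • u) (J (r • u)) = r ^ 2 * Wval c β J u (J u) := by
  simp only [Wval, map_smul, _root_.smul_apply, smul_eq_mul]
  ring

theorem J_reduce {J : E4 → E4 →L[ℝ] E4} (hper : Periodic4 J)
    (hinv : ∀ x y, x 0 = y 0 → J x = J y) (x : E4) : J x = J (Int.fract (x 0) • e0) := by
  have h := hper (Int.fract (x 0) • e0) (Pi.single 0 ⌊x 0⌋)
  rw [← h]
  apply hinv
  simp [e0]

theorem exists_tame {w : E4 → E4 [⋀^Fin 2]→L[ℝ] ℝ} (hw : IsClosedForm w)
    {J : E4 → E4 →L[ℝ] E4} (hJ : IsAlmostComplex J)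
    (hinv : ∀ x y, x 0 = y 0 → J x = J y) (htame : Tames w J) :
    ∃ c : ℝ, ∀ x u, u ≠ 0 → 0 < Wval c (beta w) (J x) u (J x u) := by
  have hJc : Continuous J := hJ.smooth.continuous
  set K : Set (ℝ × E4) := Icc (0 : ℝ) 1 ×ˢ Metric.sphere (0 : E4) 1 with hKdef
  have hK : IsCompact K := isCompact_Icc.prod (isCompact_sphere _ _)
  have hJ' : Continuous (fun p : ℝ × E4 => J (p.1 • e0)) :=
    hJc.comp (continuous_fst.smul continuous_const)
  have hf : Continuous (fun p : ℝ × E4 => (tau p.2) ^ 2 + (sig (J (p.1 • e0)) p.2) ^ 2) := by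
    have h1 : Continuous (fun p : ℝ × E4 => tau p.2) := tau.continuous.comp continuous_snd
    have h2 : Continuous (fun p : ℝ × E4 => sig (J (p.1 • e0)) p.2) := by
      simp only [sig_apply]
      exact tau.continuous.comp (hJ'.clm_apply continuous_snd)
    exact (h1.pow 2).add (h2.pow 2)
  have hR : Continuous (fun p : ℝ × E4 =>
      Wval 0 (beta w) (J (p.1 • e0)) p.2 (J (p.1 • e0) p.2)) :=
    continuous_Wval (beta w) hJ' continuous_snd (hJ'.clm_apply continuous_snd)
  obtain ⟨c, hc⟩ := exists_c hK hf hR (fun k _ => by positivity) (by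
    intro k hk h0
    have hk2 : k.2 ≠ 0 := by
      have : ‖k.2‖ = 1 := by simpa using hk.2
      intro h
      rw [h] at this
      simp at this
    have t1 : tau k.2 = 0 := by nlinarith [sq_nonneg (tau k.2), sq_nonneg (sig (J (k.1 • e0)) k.2)]
    have t2 : sig (J (k.1 • e0)) k.2 = 0 := by
      nlinarith [sq_nonneg (tau k.2), sq_nonneg (sig (J (k.1 • e0)) k.2)]
    rw [Wval_line _ t1 t2]
    exact beta_pos hw hinv htame _ hk2 t1 t2)
  refine ⟨c, fun x u hu => ?_⟩
  rw [J_reduce hJ.periodic hinv x]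
  set t := Int.fract (x 0) with ht
  have hnorm : 0 < ‖u‖ := norm_pos_iff.2 hu
  have hmem : ((t, ‖u‖⁻¹ • u) : ℝ × E4) ∈ K := by
    refine ⟨⟨Int.fract_nonneg _, (Int.fract_lt_one _).le⟩, ?_⟩
    simp [norm_smul, hnorm.ne']
  have h1 := hc _ hmem
  simp only at h1
  rw [← Wval_tame (fun v => hJ.sq _ v)] at h1
  have h2 : u = ‖u‖ • (‖u‖⁻¹ • u) := by
    rw [smul_smul, mul_inv_cancel₀ hnorm.ne', one_smul]
  rw [h2, Wval_smul]
  positivity

end Vale.Agent.P204
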