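import Vale.Agent.P204.AverageMT
import Vale.Agent.P204.Construct

namespace Vale.Agent.P204

open Set
open scoped ContDiff

theorem hatA_mul (A B : Matrix (Fin 3) (Fin 3) ℤ) (v : E4) :
    hatA A (hatA B v) = hatA (A * B) v := by
  rw [hatA_apply B v, hatA_cons, hatA_apply (A * B) v, realMat_mul, Matrix.mulVec_mulVec]

theorem hatA_one (v : E4) : hatA 1 v = v := by
  rw [hatA_apply, realMat_one, Matrix.one_mulVec]
  exact Fin.cons_self_tail v

section Natural

variable {A : Matrix (Fin 3) (Fin 3) ℤ} {J J' : E4 →L[ℝ] E4}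
  (hrel : ∀ v, J' (hatA A v) = hatA A (J v))
  {β : E4 →L[ℝ] E4 →L[ℝ] ℝ} (hβ : ∀ u v, β (hatA A u) (hatA A v) = β u v)

include hrel

theorem J'_e0 : J' e0 = hatA A (J e0) := by
  rw [← hrel, hatA_e0]

theorem xi_nat : xi J' = hatA A (xi J) := by
  unfold xi
  rw [J'_e0 hrel, tau_hatA]
  simp only [map_smul, map_add, hatA_e0]

include hβ

theorem Acov_nat (c : ℝ) (v : E4) : Acov c β J' (hatA A v) = Acov c β J v := by
  simp only [Acov_apply, sig_apply, xi_nat hrel, hrel, hβ, tau_hatA]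

theorem Wval_nat (c : ℝ) (u v : E4) : Wval c β J' (hatA A u) (hatA A v) = Wval c β J u v := by
  simp only [Wval, Acov_nat hrel hβ, hβ, tau_hatA]

end Natural

theorem exists_tameMT {A B : Matrix (Fin 3) (Fin 3) ℤ} (hAB : A * B = 1) (hBA : B * A = 1)
    {w : E4 → E4 [⋀^Fin 2]→L[ℝ] ℝ} (hw : IsClosedFormMT A w)
    {J : E4 → E4 →L[ℝ] E4} (hJ : IsAlmostComplexMT A J)
    (hinv : ∀ x y, x 0 = y 0 → J x = J y) (htame : Tames w J) :
    ∃ c : ℝ, ∀ x u, u ≠ 0 → 0 < Wval c (beta w) (J x) u (J x u) := by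
  have hJc : Continuous J := hJ.smooth.continuous
  set K : Set (ℝ × E4) := Icc (0 : ℝ) 1 ×ˢ Metric.sphere (0 : E4) 1 with hKdef
  have hK : IsCompact K := isCompact_Icc.prod (isCompact_sphere _ _)
  have hJ' : Continuous (fun p : ℝ × E4 => J (p.1 • e0)) :=
    hJc.comp (continuous_fst.smul continuous_const)
  have hf : Continuous (fun p : ℝ × E4 => (tau p.2) ^ 2 + (sig (J (p.1 • e0)) p.2) ^ 2) := by
    have h1 : Continuous (fun p : ℝ × E4 => tau p.2) := tau.continuous.comp continuous_snd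
    have h2 : Continuous (fun p : ℝ × E4 => sig (J (p.1 • e0)) p.2) := by
      simp only [sig_apply]
      exact tau.continuous.comp (hJ'.clm_apply continuous_snd)
    exact (h1.pow 2).add (h2.pow 2)
  have hR : Continuous (fun p : ℝ × E4 =>
      Wval 0 (beta w) (J (p.1 • e0)) p.2 (J (p.1 • e0) p.2)) :=
    continuous_Wval (beta w) hJ' continuous_snd (hJ'.clm_apply continuous_snd)
  obtain ⟨c, hc⟩ := exists_c hK hf hR (fun k _ => by positivity) (by
    intro k hk h0
    have hk2 : k.2 ≠ 0 := by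
      have : ‖k.2‖ = 1 := by simpa using hk.2
      intro h
      rw [h] at this
      simp at this
    have t1 : tau k.2 = 0 := by nlinarith [sq_nonneg (tau k.2), sq_nonneg (sig (J (k.1 • e0)) k.2)]
    have t2 : sig (J (k.1 • e0)) k.2 = 0 := by
      nlinarith [sq_nonneg (tau k.2), sq_nonneg (sig (J (k.1 • e0)) k.2)]
    rw [Wval_line _ t1 t2]
    exact beta_pos' hw.smooth hw.closed hw.periodic hinv htame _ hk2 t1 t2)
  refine ⟨c, ?_⟩
  set Q : ℝ → Prop := fun t => ∀ u, u ≠ 0 → 0 < Wval c (beta w) (J (t • e0)) u (J (t • e0) u)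
    with hQ
  have hbase : ∀ t ∈ Icc (0 : ℝ) 1, Q t := by
    intro t ht u hu
    have hnorm : 0 < ‖u‖ := norm_pos_iff.2 hu
    have hmem : ((t, ‖u‖⁻¹ • u) : ℝ × E4) ∈ K := by
      refine ⟨ht, ?_⟩
      simp [norm_smul, hnorm.ne']
    have h1 := hc _ hmem
    simp only at h1
    rw [← Wval_tame (fun v => hJ.sq _ v)] at h1
    have h2 : u = ‖u‖ • (‖u‖⁻¹ • u) := by
      rw [smul_smul, mul_inv_cancel₀ hnorm.ne', one_smul]
    rw [h2, Wval_smul]
    positivity
  have hβ := beta_hatA hAB hBA hw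
  have hrel : ∀ (t : ℝ) (v : E4), J ((t + 1) • e0) (hatA A v) = hatA A (J (t • e0) v) := by
    intro t v
    rw [← hJ.equivariant]
    have : J ((t + 1) • e0) = J (deck A (t • e0)) := by
      apply hinv
      simp [deck, hatA_apply, e0]
    rw [this]
  have hstep : ∀ t, Q t ↔ Q (t + 1) := by
    intro t
    constructor
    · intro h u hu
      have hu' : hatA B u ≠ 0 := by
        intro h0
        apply hu
        have := congrArg (hatA A) h0
        rwa [hatA_mul, hAB, hatA_one, map_zero] at this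
      have h1 := h _ hu'
      rw [← Wval_nat (hrel t) hβ, ← hrel t, hatA_mul, hAB, hatA_one] at h1
      exact h1
    · intro h u hu
      have hu' : hatA A u ≠ 0 := by
        intro h0
        apply hu
        have := congrArg (hatA B) h0
        rwa [hatA_mul, hBA, hatA_one, map_zero] at this
      have h1 := h _ hu'
      rw [hrel t, Wval_nat (hrel t) hβ] at h1
      exact h1
  have hall : ∀ (n : ℤ), ∀ s ∈ Icc (0 : ℝ) 1, Q (s + n) := by
    intro n
    induction n using Int.induction_on with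
    | zero => intro s hs; simpa using hbase s hs
    | succ i ih =>
      intro s hs
      have := (hstep (s + (i : ℤ))).1 (ih s hs)
      have e : s + ((i : ℤ) : ℝ) + 1 = s + (((i : ℤ) + 1 : ℤ) : ℝ) := by push_cast; ring
      rwa [e] at this
    | pred i ih =>
      intro s hs
      apply (hstep (s + ((-(i : ℤ) - 1 : ℤ) : ℝ))).2
      have e : s + ((-(i : ℤ) - 1 : ℤ) : ℝ) + 1 = s + ((-(i : ℤ) : ℤ) : ℝ) := by push_cast; ring
      rw [e]
      exact ih s hs
  intro x u hu
  have hx : J x = J ((Int.fract (x 0) + (⌊x 0⌋ : ℝ)) • e0) := by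
    apply hinv
    simp [e0]
  rw [hx]
  exact hall ⌊x 0⌋ (Int.fract (x 0)) ⟨Int.fract_nonneg _, (Int.fract_lt_one _).le⟩ u hu

end Vale.Agent.P204
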